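import Vale.Agent.Lib.P002.G1Defs
import Vale.Agent.Lib.P002.helper72.JorUt
import Vale.Agent.Lib.P002.helper11.UlFrame
import Vale.Agent.Lib.P002.helper22.LeadDiag

/-!
# P002 pool job G1-L (helper69): `g1_val_tri`

The genericity function is nonzero at a pair in triangular position: the polynomial frame is
then a diagonal matrix.
-/

namespace Vale.Agent.Lib.P002.H69

open Matrix
open Vale.Agent.Lib.P002

/-- A row of a matrix that is a unit row picks one coordinate of a vector. -/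
theorem h69_unit_row {n : ℕ} (T : Matrix (Fin n) (Fin n) ℂ) (x : Fin n → ℂ) (i p : Fin n)
    (h : ∀ j, T i j = if j = p then 1 else 0) : (T *ᵥ x) i = x p := by
  simp only [Matrix.mulVec, dotProduct, h, ite_mul, one_mul, zero_mul, Finset.sum_ite_eq',
    Finset.mem_univ, if_true]

theorem h69_ulT_row_lt {n : ℕ} (N : Matrix (Fin n) (Fin n) ℂ) (m i : Fin n)
    (h : i.val + m.val + 1 < n) (j : Fin n) :
    ulT N m i j = if j = ⟨i.val + m.val + 1, h⟩ then 1 else 0 := by
  simp only [ulT, Matrix.of_apply, if_pos h, Fin.ext_iff]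

theorem h69_ulT_row_eq {n : ℕ} (N : Matrix (Fin n) (Fin n) ℂ) (m i : Fin n)
    (h : i.val + m.val + 1 = n) (j : Fin n) :
    ulT N m i j = if j = m then 1 else 0 := by
  have h1 : ¬ (i.val + m.val + 1 < n) := by omega
  simp only [ulT, Matrix.of_apply, if_neg h1, if_pos h]

theorem h69_ulT_row_gt {n : ℕ} (N : Matrix (Fin n) (Fin n) ℂ) (m i : Fin n)
    (h : n < i.val + m.val + 1) (j : Fin n) :
    ulT N m i j = N i j := by
  have h1 : ¬ (i.val + m.val + 1 < n) := by omega
  have h2 : ¬ (i.val + m.val + 1 = n) := by omega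
  simp only [ulT, Matrix.of_apply, if_neg h1, if_neg h2]

/-- (a) The auxiliary matrices of the polynomial frame are nonsingular when
`N = X * w * g0` with `X`, `g0` upper triangular and invertible. -/
theorem h69_det_ulT_ne {n : ℕ} (g0 X N : Matrix (Fin n) (Fin n) ℂ)
    (hN : N = X * revM ℂ n * g0)
    (hg0 : ∀ i j, j < i → g0 i j = 0) (hg0d : g0.det ≠ 0)
    (hX : ∀ i j, j < i → X i j = 0) (hXd : ∀ i, X i i ≠ 0) (m : Fin n) :
    (ulT N m).det ≠ 0 := by
  intro hdet
  obtain ⟨x, hx0, hx⟩ := Matrix.exists_mulVec_eq_zero_iff.mpr hdet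
  apply hx0
  have hm := m.isLt
  have hxgt : ∀ j : Fin n, m.val < j.val → x j = 0 := by
    intro j hj
    have hj' := j.isLt
    have hi : j.val - m.val - 1 < n := by omega
    have hlt : j.val - m.val - 1 + m.val + 1 < n := by omega
    have h := congrFun hx ⟨j.val - m.val - 1, hi⟩
    rw [Pi.zero_apply, h69_unit_row _ x _ _ (h69_ulT_row_lt N m ⟨j.val - m.val - 1, hi⟩ hlt)] at h
    have hje : (⟨j.val - m.val - 1 + m.val + 1, hlt⟩ : Fin n) = j := by
      apply Fin.ext
      show j.val - m.val - 1 + m.val + 1 = j.val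
      omega
    calc x j = x ⟨j.val - m.val - 1 + m.val + 1, hlt⟩ := by rw [hje]
      _ = 0 := h
  have hxm : x m = 0 := by
    have hi : n - 1 - m.val < n := by omega
    have heq : n - 1 - m.val + m.val + 1 = n := by omega
    have h := congrFun hx ⟨n - 1 - m.val, hi⟩
    rw [Pi.zero_apply, h69_unit_row _ x _ _ (h69_ulT_row_eq N m ⟨n - 1 - m.val, hi⟩ heq)] at h
    exact h
  have hxge : ∀ j : Fin n, m.val ≤ j.val → x j = 0 := by
    intro j hj
    rcases Nat.lt_or_eq_of_le hj with h | h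
    · exact hxgt j h
    · have hjm : j = m := Fin.ext h.symm
      rw [hjm]
      exact hxm
  have hNx : ∀ i : Fin n, n < i.val + m.val + 1 → (N *ᵥ x) i = 0 := by
    intro i hi
    have h := congrFun hx i
    have h2 : (ulT N m *ᵥ x) i = (N *ᵥ x) i := by
      simp only [Matrix.mulVec, dotProduct, h69_ulT_row_gt N m i hi]
    rw [h2] at h
    exact h
  have hz : ∀ a : Fin n, m.val ≤ a.val → (g0 *ᵥ x) a = 0 := by
    intro a ha
    simp only [Matrix.mulVec, dotProduct]
    refine Finset.sum_eq_zero fun j _ => ?_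
    by_cases hja : j < a
    · rw [hg0 a j hja, zero_mul]
    · have h1 : a.val ≤ j.val := not_lt.mp hja
      rw [hxge j (le_trans ha h1), mul_zero]
  obtain ⟨y, hy⟩ : ∃ y : Fin n → ℂ, y = revM ℂ n *ᵥ (g0 *ᵥ x) := ⟨_, rfl⟩
  have hyi : ∀ i : Fin n, y i = (g0 *ᵥ x) (Fin.rev i) := by
    intro i
    rw [hy]
    exact h69_unit_row _ _ i (Fin.rev i) (fun j => revM_apply n i j)
  have hy0 : ∀ i : Fin n, i.val + m.val + 1 ≤ n → y i = 0 := by
    intro i hi
    rw [hyi]
    apply hz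
    rw [Fin.val_rev]
    omega
  have hNxy : N *ᵥ x = X *ᵥ y := by
    simp only [hy, hN, Matrix.mulVec_mulVec, Matrix.mul_assoc]
  have hy1 : ∀ i : Fin n, n - 1 - m.val < i.val → y i = 0 := by
    apply H72.ut_mulVec_tail X hX hXd y (n - 1 - m.val)
    intro i hi
    rw [← hNxy]
    apply hNx
    omega
  have hyall : y = 0 := by
    funext i
    by_cases h : i.val + m.val + 1 ≤ n
    · exact hy0 i h
    · exact hy1 i (by omega)
  have hzall : g0 *ᵥ x = 0 := by
    have h1 : revM ℂ n *ᵥ y = g0 *ᵥ x := by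
      rw [hy, Matrix.mulVec_mulVec, revM_mul_revM, Matrix.one_mulVec]
    rw [← h1, hyall, Matrix.mulVec_zero]
  exact Matrix.eq_zero_of_mulVec_eq_zero hg0d hzall

/-- (b), (c) The frame `g0 * ulF N` is a diagonal matrix with nonzero diagonal. -/
theorem h69_frame_diag {n : ℕ} (g0 X N : Matrix (Fin n) (Fin n) ℂ)
    (hN : N = X * revM ℂ n * g0)
    (hg0 : ∀ i j, j < i → g0 i j = 0) (hg0d : g0.det ≠ 0)
    (hX : ∀ i j, j < i → X i j = 0) (hXd : ∀ i, X i i ≠ 0) :
    ∃ D : Fin n → ℂ, (∀ i, D i ≠ 0) ∧ g0 * ulF N = Matrix.diagonal D := by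
  have hg0diag : ∀ i, g0 i i ≠ 0 := by
    have h := det_ut hg0
    rw [h] at hg0d
    exact fun i => (Finset.prod_ne_zero_iff.mp hg0d) i (Finset.mem_univ i)
  have hu : ∀ i j, j < i → ulF N i j = 0 := H11.ulF_ut N
  have hud : ∀ m, ulF N m m ≠ 0 := fun m => by
    rw [H11.ulF_diag]
    exact h69_det_ulT_ne g0 X N hN hg0 hg0d hX hXd m
  have hg1 : ∀ i j, j < i → (g0 * ulF N) i j = 0 := ut_mul hg0 hu
  have hg1d : ∀ i, (g0 * ulF N) i i ≠ 0 := fun i => by
    rw [ut_mul_diag hg0 hu]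
    exact mul_ne_zero (hg0diag i) (hud i)
  have hXZ : ∀ i j, j < i → (X * (revM ℂ n * (g0 * ulF N) * revM ℂ n)) i j = 0 := by
    have h := H11.ulF_mul N
    have e : X * (revM ℂ n * (g0 * ulF N) * revM ℂ n) = N * ulF N * revM ℂ n := by
      have e1 : N * ulF N * revM ℂ n = X * revM ℂ n * g0 * ulF N * revM ℂ n := by
        rw [← hN]
      rw [e1]
      simp only [Matrix.mul_assoc]
    rw [e]
    exact h
  have hXadj := ut_adjugate_ne hX hXd
  have hXdet : X.det ≠ 0 := by
    rw [det_ut hX]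
    exact Finset.prod_ne_zero_iff.mpr fun i _ => hXd i
  have hZ : ∀ i j, j < i → (revM ℂ n * (g0 * ulF N) * revM ℂ n) i j = 0 := by
    intro i j hij
    have h := ut_mul hXadj.1 hXZ i j hij
    rw [← Matrix.mul_assoc, Matrix.adjugate_mul, Matrix.smul_mul, Matrix.one_mul,
      Matrix.smul_apply, smul_eq_mul] at h
    exact (mul_eq_zero.mp h).resolve_left hXdet
  have hg1' : ∀ a b, a < b → (g0 * ulF N) a b = 0 := by
    intro a b hab
    have h := hZ (Fin.rev a) (Fin.rev b) (Fin.rev_lt_rev.mpr hab)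
    rw [revM_conj, Fin.rev_rev, Fin.rev_rev] at h
    exact h
  refine ⟨fun i => (g0 * ulF N) i i, hg1d, ?_⟩
  ext a b
  rw [Matrix.diagonal_apply]
  split_ifs with h
  · subst h
    rfl
  · rcases lt_or_gt_of_ne h with h1 | h1
    · exact hg1' a b h1
    · exact hg1 a b h1

/-- Pool job P002-G1-L. -/
theorem g1_val_tri {k : ℕ} (δ : Fin (k + 1) → ℂ) (hδ : Function.Injective δ)
    (A B : Matrix (Fin (k + 1)) (Fin (k + 1)) ℂ)
    (hK : ∀ i j, j < i → cmm A B i j = 0) (hKd : ∀ i, cmm A B i i = δ i)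
    (hc : ∀ i j, j < i → (B * A * revM ℂ (k + 1)) i j = 0)
    (hcd : ∀ i, (B * A * revM ℂ (k + 1)) i i ≠ 0)
    (htr : trailDet (k + 1) (B * revM ℂ (k + 1)) ≠ 0)
    (hgen : g1Gen (k + 1) (B * revM ℂ (k + 1)) ≠ 0) :
    ∃ v : Fin (k + 1) → ℂ, g1Val δ v A B ≠ 0 := by
  obtain ⟨v, hv⟩ := H72.exists_jorU_ut k δ hδ (cmm A B) hK hKd
  refine ⟨v, ?_⟩
  have hg0 : ∀ i j, j < i → jorU δ (cmm A B) v i j = 0 :=
    fun i j hji => jorU_ut δ hK hKd v j i hji
  have hg0diag : ∀ i, jorU δ (cmm A B) v i i ≠ 0 := by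
    have h := det_ut hg0
    have hv' := hv
    rw [h] at hv'
    exact fun i => (Finset.prod_ne_zero_iff.mp hv') i (Finset.mem_univ i)
  have hadj := ut_adjugate_ne hg0 hg0diag
  have hX : ∀ i j, j < i →
      ((jorU δ (cmm A B) v).adjugate * (B * A * revM ℂ (k + 1))) i j = 0 :=
    ut_mul hadj.1 hc
  have hXd : ∀ i, ((jorU δ (cmm A B) v).adjugate * (B * A * revM ℂ (k + 1))) i i ≠ 0 :=
    fun i => by
      rw [ut_mul_diag hadj.1 hc]
      exact mul_ne_zero (hadj.2 i) (hcd i)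
  have hN : (jorU δ (cmm A B) v).adjugate * (B * A) * jorU δ (cmm A B) v =
      (jorU δ (cmm A B) v).adjugate * (B * A * revM ℂ (k + 1)) * revM ℂ (k + 1) *
        jorU δ (cmm A B) v := by
    have h1 : B * A * revM ℂ (k + 1) * revM ℂ (k + 1) = B * A := by
      rw [Matrix.mul_assoc (B * A), revM_mul_revM, Matrix.mul_one]
    rw [Matrix.mul_assoc ((jorU δ (cmm A B) v).adjugate) (B * A * revM ℂ (k + 1))
      (revM ℂ (k + 1)), h1]
  obtain ⟨D, hD, hdiag⟩ := h69_frame_diag (jorU δ (cmm A B) v) _ _ hN hg0 hv hX hXd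
  have hframe : g1Frame δ v A B = Matrix.diagonal D := hdiag
  have hcomm : Matrix.diagonal D * revM ℂ (k + 1) =
      revM ℂ (k + 1) * Matrix.diagonal (fun i => D (Fin.rev i)) := by
    ext i j
    rw [Matrix.diagonal_mul, Matrix.mul_diagonal, revM_apply]
    split_ifs with h
    · rw [h, Fin.rev_rev]
      ring
    · ring
  have hmat : g1Mat δ v A B =
      Matrix.diagonal (fun i => ∏ j ∈ Finset.univ.erase i, D j) * (B * revM ℂ (k + 1)) *
        Matrix.diagonal (fun i => D (Fin.rev i)) := by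
    unfold g1Mat
    rw [hframe, Matrix.adjugate_diagonal, Matrix.mul_assoc (Matrix.diagonal _ * B), hcomm]
    simp only [Matrix.mul_assoc]
  have hd' : ∀ i, (∏ j ∈ Finset.univ.erase i, D j) ≠ 0 :=
    fun i => Finset.prod_ne_zero_iff.mpr fun j _ => hD j
  unfold g1Val
  rw [hmat, hframe, Matrix.det_diagonal]
  refine mul_ne_zero (mul_ne_zero (Finset.prod_ne_zero_iff.mpr fun i _ => hD i) ?_) ?_
  · apply trailDet_conj_ne_zero
    · intro i j hij
      exact Matrix.diagonal_apply_ne _ (ne_of_gt hij)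
    · intro i
      rw [Matrix.diagonal_apply_eq]
      exact hd' i
    · intro i j hij
      exact Matrix.diagonal_apply_ne _ (ne_of_lt hij)
    · intro i
      rw [Matrix.diagonal_apply_eq]
      exact hD _
    · exact htr
  · exact H22.g1Gen_diag_ne_zero (k + 1) _ _ _ hd' (fun i => hD _) hgen

end Vale.Agent.Lib.P002.H69
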